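import Vale.Agent.P122.H286.Dens
import Vale.Agent.P127.U.ExcBase

/-!
# P122 / H655 : the excess of the tubes is at most the logarithm of their maximal density in planks

`Plk θ k j p v l` : the line `l` is in the plank of centre `(p, v)`, wide direction `θ`, width `2^-k`, thickness `2^-j`
(positions and slopes).
`excF_le_count` : if, given the value `c` of `C`, every plank with `k ≤ j ≤ n` contains at most `Λ 2^(2n-k-j)` tubes of
precision `n`, then `excF P (tbx n l) C ≤ log Λ`.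
-/

set_option autoImplicit false

namespace Vale.Agent.P122.H655

open Vale.Agent.P127 Vale.Agent.P127.Stk Vale.Agent.P127.U

/-- the line `l` is in the plank `(p, v)`, `θ`, `2^-k`, `2^-j` -/
def Plk (θ : ℝ) (k j : ℕ) (p v : Fin 2 → ℝ) (l : Ln) : Prop :=
  |co θ (fun i => l.1 i - p i) 0| ≤ (1 / 2 : ℝ) ^ k ∧ |co θ (fun i => l.1 i - p i) 1| ≤ (1 / 2 : ℝ) ^ j ∧
  |co θ (fun i => l.2 i - v i) 0| ≤ (1 / 2 : ℝ) ^ k ∧ |co θ (fun i => l.2 i - v i) 1| ≤ (1 / 2 : ℝ) ^ j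

/-- two lines with the same label are in a common plank -/
theorem plk_of_lab {θ θ' : ℝ} {k j k' j' : ℕ} {l l' : Ln} (h : U.lab θ k j l = U.lab θ' k' j' l') :
    k = k' ∧ j = j' ∧ Plk (qa (j - k) θ) k j l'.1 l'.2 l := by
  unfold U.lab fkj at h
  simp only [Prod.mk.injEq] at h
  obtain ⟨rfl, rfl, h3, ⟨h4, h5⟩, h6, h7⟩ := h
  have e : qa (j - k) θ' = qa (j - k) θ := by unfold qa; rw [h3]
  rw [e] at h4 h5 h6 h7
  refine ⟨rfl, rfl, ?_, ?_, ?_, ?_⟩ <;> rw [co_sub]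
  · exact fl1_close h4
  · exact fl1_close h5
  · exact fl1_close h6
  · exact fl1_close h7

/-- the label of a tube is a function of `tb` -/
theorem lab_tbx (n : ℕ) (l : Ln) : U.lab 0 n n l =
    (n, n, fl1 (n - n) 0, ((tb n l).1 0, (tb n l).1 1), ((tb n l).2 0, (tb n l).2 1)) := by
  have e : qa (n - n) (0:ℝ) = 0 := by
    unfold qa fl1
    simp
  unfold U.lab fkj
  rw [e]
  simp only [co, tb, Stk.fl, Stk.fl1, Real.cos_zero, Real.sin_zero, Matrix.cons_val_zero, Matrix.cons_val_one,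
    one_mul, zero_mul, add_zero, neg_zero, zero_add]

variable {Ω : Type} [Fintype Ω] {γ : Type*}

/-- the tubes of the plank, given `C = c` -/
def tubs (P : Law Ω) (l : Ω → Ln) (C : Ω → γ) (n : ℕ) (c : γ) (θ : ℝ) (k j : ℕ) (p v : Fin 2 → ℝ) :
    Set ((Fin 2 → ℤ) × (Fin 2 → ℤ)) :=
  {z | ∃ ω, 0 < P.w ω ∧ C ω = c ∧ Plk θ k j p v (l ω) ∧ tb n (l ω) = z}

/-- **the excess is at most the logarithm of the maximal density** -/
theorem excF_le_count (P : Law Ω) (l : Ω → Ln) (C : Ω → γ) (n : ℕ) {Λ : ℝ} (hΛ : 1 ≤ Λ)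
    (h : ∀ (c : γ) (θ : ℝ) (k j : ℕ) (p v : Fin 2 → ℝ), k ≤ j → j ≤ n →
      ((tubs P l C n c θ k j p v).ncard : ℝ) ≤ Λ * 2 ^ (2 * n - k - j)) :
    excF P (tbx n l) C ≤ Real.log Λ := by
  classical
  refine Real.sSup_le ?_ (Real.log_nonneg hΛ)
  rintro v ⟨Ω', _, P', π, W, h1, h2, rfl⟩
  have hpos : ∀ ω', 0 < P'.w ω' → 0 < P.w (π ω') := by
    intro ω' hω'
    rw [← h1]
    refine hω'.trans_le ?_
    unfold Law.pr
    exact Finset.single_le_sum (f := P'.w) (fun i _ => P'.nn i)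
      (Finset.mem_filter.2 ⟨Finset.mem_univ _, rfl⟩)
  -- the set of labels of tubes, for a label of `W` and a value of `C`
  let s : Lab × γ → Finset Lab := fun w => (Finset.univ.filter fun ω' : Ω' =>
    0 < P'.w ω' ∧ W.lab ω' = w.1 ∧ C (π ω') = w.2).image fun ω' => ((tbx n l).comp π).lab ω'
  let u : Lab × γ → ℝ := fun w => Λ * 2 ^ (2 * n - w.1.1 - w.1.2.1)
  have hs : ∀ ω', 0 < P'.w ω' → ((s (W.lab ω', C (π ω'))).card : ℝ) ≤ u (W.lab ω', C (π ω')) := by
    intro ω' hω'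
    obtain ⟨e1, e2, e3, e4, e5, e6⟩ := h2 ω' hω'
    have hk : W.k ω' ≤ W.j ω' := e3
    have hj : W.j ω' ≤ n := e5
    have hcard := h (C (π ω')) (qa (W.j ω' - W.k ω') (W.θ ω')) (W.k ω') (W.j ω') (l (π ω')).1 (l (π ω')).2 hk hj
    show _ ≤ Λ * 2 ^ (2 * n - W.k ω' - W.j ω')
    refine le_trans ?_ hcard
    have hfin : (tubs P l C n (C (π ω')) (qa (W.j ω' - W.k ω') (W.θ ω')) (W.k ω') (W.j ω')
        (l (π ω')).1 (l (π ω')).2).Finite := by
      refine (Set.toFinite (Set.range fun ω => tb n (l ω))).subset ?_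
      rintro z ⟨ω, -, -, -, rfl⟩
      exact ⟨ω, rfl⟩
    have hsub : s (W.lab ω', C (π ω')) ⊆ hfin.toFinset.image
        (fun z => ((n, n, fl1 (n - n) 0, (z.1 0, z.1 1), (z.2 0, z.2 1)) : Lab)) := by
      intro z hz
      obtain ⟨ω'', hω'', rfl⟩ := Finset.mem_image.1 hz
      obtain ⟨-, g1, g2, g3⟩ := Finset.mem_filter.1 hω''
      obtain ⟨f1, -⟩ := h2 ω'' g1
      refine Finset.mem_image.2 ⟨tb n (l (π ω'')), ?_, ?_⟩
      · rw [Set.Finite.mem_toFinset]
        refine ⟨π ω'', hpos _ g1, g3, ?_, rfl⟩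
        have g2' : U.lab (W.θ ω'') (W.k ω'') (W.j ω'') (W.l ω'') =
          U.lab (W.θ ω') (W.k ω') (W.j ω') (W.l ω') := g2
        obtain ⟨a1, a2, a3⟩ := plk_of_lab g2'
        have q1 : qa (W.j ω'' - W.k ω'') (W.θ ω'') = qa (W.j ω' - W.k ω') (W.θ ω') := by
          have := congrArg (fun w : Lab => w.2.2.1) g2'
          simp only [U.lab] at this
          unfold qa
          rw [this, a1, a2]
        rw [a1, a2] at a3
        rw [← a1, ← a2, q1, a1, a2, f1, e1] at a3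
        exact a3
      · exact (lab_tbx n (l (π ω''))).symm
    have hc := Finset.card_le_card hsub
    have hc' := hc.trans Finset.card_image_le
    rw [Set.ncard_eq_toFinset_card _ hfin]
    exact_mod_cast hc'
  have key := H286.BF.hc_le_ex_log P' ((tbx n l).comp π).lab (fun ω' => (W.lab ω', C (π ω'))) s u
    (fun ω' hω' => Finset.mem_image.2 ⟨ω', Finset.mem_filter.2 ⟨Finset.mem_univ _, hω', rfl, rfl⟩, rfl⟩) hs
  have e : (P'.ex fun ω' => Real.log (u (W.lab ω', C (π ω')))) =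
      Real.log Λ + Real.log 2 * P'.ex fun ω' => ((tbx n l).comp π).sz ω' - W.sz ω' := by
    rw [← P'.ex_const (Real.log Λ), ← P'.ex_const_mul, ← P'.ex_add]
    refine P'.ex_congr fun ω' hω' => ?_
    obtain ⟨e1, e2, e3, e4, e5, e6⟩ := h2 ω' hω'
    have hk : W.k ω' ≤ n := e4
    have hj : W.j ω' ≤ n := e5
    show Real.log (Λ * 2 ^ (2 * n - W.k ω' - W.j ω')) = _
    have hn : ((2 * n - W.k ω' - W.j ω' : ℕ) : ℝ) = ((n : ℝ) + n) - ((W.k ω' : ℝ) + W.j ω') := by
      have h3 : W.k ω' ≤ 2 * n := by omega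
      have h4 : W.j ω' ≤ 2 * n - W.k ω' := by omega
      rw [Nat.cast_sub h4, Nat.cast_sub h3]
      push_cast
      ring
    rw [Real.log_mul (by positivity) (by positivity), Real.log_pow, hn]
    show _ = Real.log Λ + Real.log 2 * (((n : ℝ) + n) - ((W.k ω' : ℝ) + W.j ω'))
    ring
  unfold exV
  rw [e] at key
  linarith

end Vale.Agent.P122.H655
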