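import Vale.Agent.P122.C.Defs2
import Vale.Agent.P122.H655.ExcUp

/-!
# P122 / H655 : excess of the lines of nodes, bounded by plank counts of nodes

`ndl N s S` : the normalised line of the node `S` in its ball: position `(o mod 2^N) / 2^N`, slope `s S.τ`.
-/

set_option autoImplicit false

namespace Vale.Agent.P122.H655

open Vale.Agent.P127 Vale.Agent.P127.Stk Vale.Agent.P127.U Vale.Agent.P122.C2

/-- the normalised line of a node (`2^N` = number of tubes across the ball) -/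
noncomputable def ndl (N : ℕ) (s : Z2 → Fin 2 → ℝ) (S : Nd) : Ln :=
  (fun k => ((S.o k % 2 ^ N : ℤ) : ℝ) / 2 ^ N, s S.τ)

/-- the node `S` is in the plank of centre `(p, v)`, frame `θ`, width `u2`, thickness `u1` (normalised by `2^N`) -/
def NPlk (N : ℕ) (s : Z2 → Fin 2 → ℝ) (θ u1 u2 : ℝ) (p v : Fin 2 → ℝ) (S : Nd) : Prop :=
  |fw θ (fun j => (S.o j : ℝ) / 2 ^ N - p j)| ≤ u2 ∧ |C2.fn θ (fun j => (S.o j : ℝ) / 2 ^ N - p j)| ≤ u1 ∧
    |fw θ (fun j => s S.τ j - v j)| ≤ u2 ∧ |C2.fn θ (fun j => s S.τ j - v j)| ≤ u1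

theorem co_zero (θ : ℝ) (v : Fin 2 → ℝ) : co θ v 0 = fw θ v := rfl

theorem co_one (θ : ℝ) (v : Fin 2 → ℝ) : co θ v 1 = C2.fn θ v := rfl

theorem emod_cast (a : ℤ) (N : ℕ) : ((a % 2 ^ N : ℤ) : ℝ) / 2 ^ N = (a : ℝ) / 2 ^ N - ((a / 2 ^ N : ℤ) : ℝ) := by
  have h := Int.emod_add_mul_ediv a (2 ^ N)
  have h2 : (a : ℝ) = ((a % 2 ^ N : ℤ) : ℝ) + 2 ^ N * ((a / 2 ^ N : ℤ) : ℝ) := by
    exact_mod_cast h.symm
  have h3 : (2 : ℝ) ^ N ≠ 0 := by positivity
  field_simp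
  linarith

variable {Ω : Type} [Fintype Ω] {γ : Type*}

/-- **node version**: `C` determines the ball (time block and coarse position). -/
theorem excF_node (P : Law Ω) (D : Finset Nd) (s : Z2 → Fin 2 → ℝ) (N : ℕ) (X : Ω → Nd) (C : Ω → γ)
    (hX : ∀ ω, 0 < P.w ω → X ω ∈ D)
    (hC : ∀ ω ω', 0 < P.w ω → 0 < P.w ω' → C ω = C ω' →
      (X ω).T = (X ω').T ∧ ∀ k, (X ω).o k / 2 ^ N = (X ω').o k / 2 ^ N)
    {Λ : ℝ} (hΛ : 1 ≤ Λ)
    (h : ∀ (T : ℤ) (θ : ℝ) (k j : ℕ) (p v : Fin 2 → ℝ) (U : Finset Nd), k ≤ j → j ≤ N → U ⊆ D →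
      (∀ S ∈ U, S.T = T ∧ NPlk N s θ ((1 / 2 : ℝ) ^ j) ((1 / 2 : ℝ) ^ k) p v S) →
      (U.card : ℝ) ≤ Λ * 2 ^ (2 * N - k - j)) :
    excF P (tbx N fun ω => ndl N s (X ω)) C ≤ Real.log Λ := by
  classical
  refine excF_le_count P _ C N hΛ fun c θ k j p v hkj hj => ?_
  set Z : Finset Ω := Finset.univ.filter fun ω => 0 < P.w ω ∧ C ω = c ∧ Plk θ k j p v (ndl N s (X ω)) with hZ
  rcases Z.eq_empty_or_nonempty with h0 | ⟨ω0, hω0⟩
  · have : tubs P (fun ω => ndl N s (X ω)) C N c θ k j p v = ∅ := by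
      ext z
      simp only [Set.mem_empty_iff_false, iff_false]
      rintro ⟨ω, h1, h2, h3, -⟩
      have : ω ∈ Z := Finset.mem_filter.2 ⟨Finset.mem_univ _, h1, h2, h3⟩
      rw [h0] at this
      exact absurd this (Finset.notMem_empty _)
    rw [this, Set.ncard_empty]
    push_cast
    positivity
  · obtain ⟨-, w1, w2, w3⟩ := Finset.mem_filter.1 hω0
    let U : Finset Nd := Z.image X
    have hU : (tubs P (fun ω => ndl N s (X ω)) C N c θ k j p v).ncard ≤ U.card := by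
      have hsub : tubs P (fun ω => ndl N s (X ω)) C N c θ k j p v ⊆
          ((U.image fun S => tb N (ndl N s S)) : Set ((Fin 2 → ℤ) × (Fin 2 → ℤ))) := by
        rintro z ⟨ω, h1, h2, h3, rfl⟩
        rw [Finset.mem_coe, Finset.mem_image]
        exact ⟨X ω, Finset.mem_image.2 ⟨ω, Finset.mem_filter.2 ⟨Finset.mem_univ _, h1, h2, h3⟩, rfl⟩, rfl⟩
      refine (Set.ncard_le_ncard hsub (Finset.finite_toSet _)).trans ?_
      rw [Set.ncard_coe_finset]
      exact Finset.card_image_le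
    refine le_trans (by exact_mod_cast hU) (h (X ω0).T θ k j
      (fun i => p i + (((X ω0).o i / 2 ^ N : ℤ) : ℝ)) v U hkj hj ?_ ?_)
    · intro S hS
      obtain ⟨ω, hω, rfl⟩ := Finset.mem_image.1 hS
      exact hX ω (Finset.mem_filter.1 hω).2.1
    · intro S hS
      obtain ⟨ω, hω, rfl⟩ := Finset.mem_image.1 hS
      obtain ⟨-, v1, v2, v3⟩ := Finset.mem_filter.1 hω
      obtain ⟨t1, t2⟩ := hC ω ω0 v1 w1 (v2.trans w2.symm)
      have e : (fun i => ((X ω).o i : ℝ) / 2 ^ N - (p i + (((X ω0).o i / 2 ^ N : ℤ) : ℝ))) =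
          fun i => (ndl N s (X ω)).1 i - p i := by
        funext i
        show _ = (((X ω).o i % 2 ^ N : ℤ) : ℝ) / 2 ^ N - p i
        rw [emod_cast, t2 i]
        ring
      refine ⟨t1, ?_, ?_, ?_, ?_⟩
      · rw [e]; exact v3.1
      · rw [e]; exact v3.2.1
      · exact v3.2.2.1
      · exact v3.2.2.2

/-- label of the node from the tube label and the ball: entropies of nodes and of tubes agree up to slope rounding -/
theorem tb_ndl_fst (N : ℕ) (s : Z2 → Fin 2 → ℝ) (S : Nd) (k : Fin 2) : (tb N (ndl N s S)).1 k = S.o k % 2 ^ N := by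
  show ⌊(2 : ℝ) ^ N * (((S.o k % 2 ^ N : ℤ) : ℝ) / 2 ^ N)⌋ = _
  have h3 : (2 : ℝ) ^ N ≠ 0 := by positivity
  rw [mul_div_cancel₀ _ h3, Int.floor_intCast]

end Vale.Agent.P122.H655
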