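import Vale.Agent.P122.E.Defs
import Vale.Agent.P122.H655.ExcNode

/-!
# P122 / H655 : E3, the excess of the framework is at most the counting excess
-/

set_option autoImplicit false

namespace Vale.Agent.P122.H655

open Filter Topology Finset Vale.Agent.P127 Vale.Agent.P127.Stk Vale.Agent.P127.U Vale.Agent.P127.U.Sys
  Vale.Agent.P122.C2 Vale.Agent.P122.E

theorem fract_eq (a : ℤ) (N : ℕ) : Int.fract ((a : ℝ) / 2 ^ N) = ((a % 2 ^ N : ℤ) : ℝ) / 2 ^ N := by
  rw [emod_cast, Int.fract]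
  congr 2
  have h : (2 : ℝ) ^ N = (((2 ^ N : ℕ) : ℤ) : ℝ) := by push_cast; rfl
  rw [h, Int.cast_natCast, Int.floor_div_natCast, Int.floor_intCast]
  push_cast
  rfl

variable {K : ℕ} (F : Flg K)

/-- the nodes have caps of their level -/
theorem cap_N (i : ℕ) {ω : F.S.Ω i} (hω : 0 < (F.S.P i).w ω) (c : ℕ) (hc : c ≤ K) :
    Cap (F.n i) c (F.N c i ω).τ := by
  induction c with
  | zero =>
    intro k
    rw [(F.root i ω hω).1]
    simp
  | succ c ih =>
    have h1 := ih (by omega)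
    have h2 := (F.step i ω hω c (by omega)).1
    intro k
    rw [kids, Fintype.mem_piFinset] at h2
    have h3 := Finset.mem_Ico.1 (h2 k)
    have h4 := h1 k
    have h5 : (0:ℤ) < 2 ^ F.n i := by positivity
    constructor
    · exact le_trans (mul_nonneg h5.le h4.1) h3.1
    · refine h3.2.trans_le ?_
      calc (2:ℤ) ^ F.n i * ((F.N c i ω).τ k + 1) ≤ 2 ^ F.n i * 2 ^ (c * F.n i) :=
            mul_le_mul_of_nonneg_left (by linarith [h4.2]) h5.le
        _ = 2 ^ ((c + 1) * F.n i) := by rw [← pow_add]; congr 1; ring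

/-- the lines are normalised -/
theorem lnOk_ln (i : ℕ) {ω : F.S.Ω i} (hω : 0 < (F.S.P i).w ω) (c : ℕ) (hc : c ≤ K) :
    LnOk (F.ln c i ω) := by
  constructor
  · intro k
    show |Int.fract _| ≤ 1
    rw [abs_of_nonneg (Int.fract_nonneg _)]
    exact (Int.fract_lt_one _).le
  · intro k
    exact (F.slp i).bd c _ k hc (cap_N F i hω c hc)

theorem ln_eq (i : ℕ) (c : ℕ) : F.ln c i = fun ω => ndl (c * F.n i) (F.s i c) (F.N c i ω) := by
  funext ω
  unfold Flg.ln ndl
  simp only [fract_eq]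

theorem e3 : E3 := by
  classical
  intro K F c e hK hc he hE
  refine le_of_forall_pos_le_add fun ε hε => ?_
  have h1 : ∀ᶠ i in (uf : Filter ℕ),
      excF (F.S.P i) (tubes (F.m c) (F.ln c) i) (F.ball c i) / F.S.nm i ≤ e + ε := by
    filter_upwards [hE ε hε, F.S.nm_pos] with i hi hnm
    rw [div_le_iff₀ hnm]
    have hL : 0 ≤ (e + ε) * F.S.L i := by positivity
    have hΛ : (1:ℝ) ≤ (2 : ℝ) ^ ((e + ε) * F.S.L i) := Real.one_le_rpow (by norm_num) hL
    have h2 := excF_node (F.S.P i)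
      ((Finset.univ.filter fun ω => 0 < (F.S.P i).w ω).image (F.N c i)) (F.s i c) (c * F.n i) (F.N c i)
      (F.ball c i) (fun ω hω => Finset.mem_image.2 ⟨ω, Finset.mem_filter.2 ⟨Finset.mem_univ _, hω⟩, rfl⟩)
      (fun ω ω' _ _ h => ⟨congrArg Prod.fst h, fun k => congrFun (congrArg Prod.snd h) k⟩) hΛ
      (fun T θ k j p v U hkj hj hU hS => ?_)
    · have h3 : excF (F.S.P i) (tubes (F.m c) (F.ln c) i) (F.ball c i) ≤
          Real.log ((2 : ℝ) ^ ((e + ε) * F.S.L i)) := by
        have e1 : tubes (F.m c) (F.ln c) i =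
            tbx (c * F.n i) fun ω => ndl (c * F.n i) (F.s i c) (F.N c i ω) := by
          show tbx (c * F.n i) (F.ln c i) = _
          rw [ln_eq]
        rw [e1]
        exact h2
      rw [Real.log_rpow (by norm_num)] at h3
      refine h3.trans (le_of_eq ?_)
      unfold Sys.nm
      ring
    · have h3 := hi θ ((1 / 2 : ℝ) ^ j) ((1 / 2 : ℝ) ^ k) p v T U
        (pow_le_pow_of_le_one (by norm_num) (by norm_num) hj)
        (pow_le_pow_of_le_one (by norm_num) (by norm_num) hkj) (pow_le_one₀ (by norm_num) (by norm_num))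
        (fun S hSU => by
          obtain ⟨g1, g2⟩ := hS S hSU
          obtain ⟨ω, hω, hω2⟩ := Finset.mem_image.1 (hU hSU)
          exact ⟨⟨ω, (Finset.mem_filter.1 hω).2, hω2⟩, g1, g2⟩)
      refine h3.trans (le_of_eq ?_)
      congr 1
      have h4 : k + (j + (2 * (c * F.n i) - k - j)) = 2 * c * F.n i := by
        have : 2 * c * F.n i = 2 * (c * F.n i) := by ring
        omega
      rw [← h4, pow_add, pow_add, one_div, inv_pow, inv_pow]
      have hk : (2:ℝ) ^ k ≠ 0 := by positivity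
      have hj' : (2:ℝ) ^ j ≠ 0 := by positivity
      field_simp
  have h0 : ∀ᶠ i in (uf : Filter ℕ),
      0 ≤ excF (F.S.P i) (tubes (F.m c) (F.ln c) i) (F.ball c i) / F.S.nm i := by
    filter_upwards [F.S.nm_pos] with i hnm
    refine div_nonneg (excF_nonneg fun ω hω => ⟨lnOk_ln F i hω c hc, ?_, le_rfl⟩) hnm.le
    show |(0:ℝ)| ≤ 4
    norm_num
  exact ulim_le_const (UB.of_le h0 h1) h1

end Vale.Agent.P122.H655
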